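import Vale.Agent.P050.R2.H602.Comb

set_option linter.all false

/-!
Dense targets, M5c and M5d: bound of one term of the path expansion.
-/

open MeasureTheory Finset

namespace Vale.Agent.P050.Dense.H602

open Vale.Agent.P050 Vale.Agent.P050.Dense

section dec

variable {V : Type*} [Fintype V] [DecidableEq V] {Ω : Type*} [MeasurableSpace Ω]
variable (μ : Measure Ω) [IsProbabilityMeasure μ] {U : Sym2 Ω → ℝ} {κ η : ℝ}

/-- the decoration at a path vertex `b'` -/
noncomputable def decL (U : Sym2 Ω → ℝ) (N : V → Finset V) (o : V → ℕ) (a₀ : V) :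
    List (V × V) → V → (V → Ω) → ℝ
  | [], _, _ => 1
  | (b, a) :: L, b', z => if b' = b then Rdec U N o b (lastA a₀ L) a z else decL U N o a₀ L b' z

/-- plain path products -/
noncomputable abbrev pp (U : Sym2 Ω → ℝ) (a : V) (p : List V) (b : V) (z : V → Ω) : ℝ :=
  pathProd U (fun _ _ _ => 1) a p b z

lemma pp_nil (a b : V) (z : V → Ω) : pp U a [] b z = U s(z a, z b) := rfl

lemma pp_cons (a v b : V) (p : List V) (z : V → Ω) :
    pp U a (v :: p) b z = U s(z a, z v) * pp U v p b z := by
  unfold pp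
  simp [pathProd]

lemma pp_split (a m b : V) (p q : List V) (z : V → Ω) :
    pp U a (p ++ m :: q) b z = pp U a p m z * pp U m q b z := by
  induction p generalizing a with
  | nil => rw [List.nil_append, pp_cons, pp_nil]
  | cons v p ih => rw [List.cons_append, pp_cons, pp_cons, ih, mul_assoc]

lemma pp_reverse (a b : V) (p : List V) (z : V → Ω) :
    pp U a p b z = pp U b p.reverse a z := by
  induction p generalizing a with
  | nil => rw [List.reverse_nil, pp_nil, pp_nil, Sym2.eq_swap]
  | cons v p ih =>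
    rw [pp_cons, List.reverse_cons, pp_split, pp_nil, ih v, mul_comm, Sym2.eq_swap]

lemma core_eq {N : V → Finset V} {γ : Finset V} {o : V → ℕ} {a₀ : V} :
    ∀ {L : List (V × V)}, Pth N γ a₀ L → L ≠ [] → ∀ z : V → Ω,
      core U N o a₀ L z = pp U (lastA a₀ L) (inn L) a₀ z * ∏ b ∈ Bs L, decL U N o a₀ L b z := by
  intro L
  induction L with
  | nil => intro _ h; exact absurd rfl h
  | cons x L ih =>
    intro hP _ z
    obtain ⟨b, a⟩ := x
    have hprod : ∏ b' ∈ Bs ((b, a) :: L), decL U N o a₀ ((b, a) :: L) b' z =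
        Rdec U N o b (lastA a₀ L) a z * ∏ b' ∈ Bs L, decL U N o a₀ L b' z := by
      rw [Bs_cons, prod_insert hP.2.2.1]
      congr 1
      · simp [decL]
      · refine prod_congr rfl fun b' hb' => ?_
        have : b' ≠ b := fun h => hP.2.2.1 (h ▸ hb')
        simp [decL, this]
    rw [hprod]
    cases L with
    | nil =>
      simp only [core, lastA, inn, pp_cons, pp_nil, Bs_nil, prod_empty, mul_one]
      rw [Sym2.eq_swap (a := z a) (b := z b), Sym2.eq_swap (a := z a₀) (b := z b)]
      ring
    | cons y L =>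
      have h1 := ih hP.1 (by simp) z
      obtain ⟨c, d⟩ := y
      rw [inn_cons, pp_cons, pp_cons]
      have e : core U N o a₀ ((b, a) :: (c, d) :: L) z =
          U s(z d, z b) * U s(z b, z a) * Rdec U N o b d a z * core U N o a₀ ((c, d) :: L) z := rfl
      have e2 : lastA a₀ ((c, d) :: L) = d := rfl
      have e3 : lastA a₀ ((b, a) :: (c, d) :: L) = a := rfl
      rw [e, h1, e2, e3]
      rw [Sym2.eq_swap (a := z d) (b := z b), Sym2.eq_swap (a := z a) (b := z b)]
      ring

lemma bm_decL (hU : Good U 1) (N : V → Finset V) (o : V → ℕ) (a₀ : V) (L : List (V × V)) (b : V) :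
    BM (decL U N o a₀ L b) := by
  induction L with
  | nil => exact BM.const 1
  | cons x L ih =>
    obtain ⟨c, a⟩ := x
    by_cases h : b = c
    · have : decL U N o a₀ ((c, a) :: L) b = Rdec U N o c (lastA a₀ L) a := by
        funext z; simp [decL, h]
      rw [this]; exact bm_Rdec hU N o c _ _
    · have : decL U N o a₀ ((c, a) :: L) b = decL U N o a₀ L b := by
        funext z; simp [decL, h]
      rw [this]; exact ih

lemma decL_eq {N : V → Finset V} {o : V → ℕ} {a₀ : V} {L₁ L' : List (V × V)} {b a : V}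
    (h : b ∉ Bs L₁) (z : V → Ω) :
    decL U N o a₀ (L₁ ++ (b, a) :: L') b z = Rdec U N o b (lastA a₀ L') a z := by
  induction L₁ with
  | nil => simp [decL]
  | cons x L₁ ih =>
    obtain ⟨c, d⟩ := x
    rw [Bs_cons, mem_insert, not_or] at h
    rw [List.cons_append]
    have : decL U N o a₀ ((c, d) :: (L₁ ++ (b, a) :: L')) b z =
        decL U N o a₀ (L₁ ++ (b, a) :: L') b z := by simp [decL, h.1]
    rw [this]
    exact ih h.2

/-- the function attached to `b` -/
noncomputable def hb (μ : Measure Ω) (U : Sym2 Ω → ℝ) (N : V → Finset V) (o : V → ℕ) (fl : Bool)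
    (a₀ : V) (L : List (V × V)) (b : V) (z : V → Ω) : ℝ :=
  if b ∈ Bs L then decL U N o a₀ L b z else Phi μ U N (rem N o fl a₀ b L) b z

lemma JJ_eq {N : V → Finset V} {γ : Finset V} {o : V → ℕ} {fl : Bool} {a₀ : V}
    {L : List (V × V)} (hP : Pth N γ a₀ L) (hne : L ≠ []) (z : V → Ω) :
    JJ μ U N o fl γ a₀ L z = pp U (lastA a₀ L) (inn L) a₀ z *
      ∏ b ∈ γ, hb μ U N o fl a₀ L b z := by
  unfold JJ
  rw [core_eq hP hne, mul_assoc]
  congr 1
  rw [← prod_sdiff (pth_Bs_subset hP), mul_comm]
  congr 1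
  · refine prod_congr rfl fun b hb' => ?_
    rw [mem_sdiff] at hb'
    simp [hb, hb'.2]
  · refine prod_congr rfl fun b hb' => ?_
    simp [hb, hb']

lemma bm_hb (hU : Good U 1) (N : V → Finset V) (o : V → ℕ) (fl : Bool) (a₀ : V)
    (L : List (V × V)) (b : V) : BM (hb μ U N o fl a₀ L b) := by
  by_cases h : b ∈ Bs L
  · have : hb μ U N o fl a₀ L b = decL U N o a₀ L b := by funext z; simp [hb, h]
    rw [this]; exact bm_decL hU N o a₀ L b
  · have : hb μ U N o fl a₀ L b = Phi μ U N (rem N o fl a₀ b L) b := by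
      funext z; simp [hb, h]
    rw [this]; exact bm_Phi μ hU N _ b

/-- the bound of the function attached to `b` -/
noncomputable def bb (σ : ℝ) (L : List (V × V)) (b : V) : ℝ := if b ∈ Bs L then 2 else σ

lemma bb_pos {σ : ℝ} (hσ : 0 < σ) (L : List (V × V)) (b : V) : 0 < bb σ L b := by
  unfold bb; split_ifs
  · norm_num
  · exact hσ

lemma abs_hb_le (hU : Ker μ U κ η) {N : V → Finset V} {B γ : Finset V} {D : ℕ} (hN : Bip N B D)
    {σ : ℝ} (hn : Num D κ η σ) (hγ : γ ⊆ B) {o : V → ℕ} {fl : Bool} {a₀ : V}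
    {L : List (V × V)} (hP : Pth N γ a₀ L) {b : V} (hbγ : b ∈ γ) (z : V → Ω) :
    |hb μ U N o fl a₀ L b z| ≤ bb σ L b := by
  by_cases h : b ∈ Bs L
  · obtain ⟨L₁, a, L', h1, h2, h3⟩ := pth_split hP h
    have e : hb μ U N o fl a₀ L b z = Rdec U N o b (lastA a₀ L') a z := by
      simp only [hb, h, if_true]
      rw [h1]; exact decL_eq h2 z
    rw [e]
    simp only [bb, h, if_true]
    exact abs_Rdec_le hU hn o (hN.dB b (hγ hbγ)) _ _ z
  · simp only [hb, bb, h, if_false]
    exact abs_Phi_le μ hU hn hN (hγ hbγ) _ z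

lemma prod_bb {σ : ℝ} {N : V → Finset V} {γ : Finset V} {a₀ : V} {L : List (V × V)}
    (hP : Pth N γ a₀ L) : ∏ b ∈ γ, bb σ L b = 2 ^ L.length * σ ^ (γ.card - L.length) := by
  rw [← prod_sdiff (pth_Bs_subset hP), mul_comm]
  congr 1
  · rw [← pth_card_Bs hP, ← prod_const]
    refine prod_congr rfl fun b hb' => ?_
    simp [bb, hb']
  · rw [← pth_card_Bs hP, ← card_sdiff_of_subset (pth_Bs_subset hP), ← prod_const]
    refine prod_congr rfl fun b hb' => ?_
    rw [mem_sdiff] at hb'
    simp [bb, hb'.2]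

/-- dependence: outside the path -/
lemma hb_dep_off {N : V → Finset V} {o : V → ℕ} {fl : Bool} {a₀ : V}
    {L : List (V × V)} {b u : V} (h : b ∉ Bs L) (hd : ¬ Ind u (hb μ U N o fl a₀ L b)) :
    u ∈ N b := by
  by_contra hu
  apply hd
  have e : hb μ U N o fl a₀ L b = Phi μ U N (rem N o fl a₀ b L) b := by
    funext z; simp [hb, h]
  rw [e]
  exact Phi_ind μ N _ b (fun h' => hu (mem_sdiff.mp h').1)

/-- dependence: on the path -/
lemma hb_dep_on {N : V → Finset V} {o : V → ℕ} {fl : Bool} {a₀ : V}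
    {L L₁ L' : List (V × V)} {b a u : V} (hL : L = L₁ ++ (b, a) :: L') (h1 : b ∉ Bs L₁)
    (hd : ¬ Ind u (hb μ U N o fl a₀ L b)) :
    u = b ∨ (u ∈ N b ∧ u ≠ lastA a₀ L' ∧ u ≠ a) := by
  by_contra hu
  push Not at hu
  apply hd
  have hmem : b ∈ Bs L := by
    rw [hL, Bs_append, Bs_cons]; simp
  have e : hb μ U N o fl a₀ L b = Rdec U N o b (lastA a₀ L') a := by
    funext z
    simp only [hb, hmem, if_true]
    rw [hL]; exact decL_eq h1 z
  rw [e]
  refine Rdec_ind N o hu.1 ?_
  rintro ⟨h2, h3, h4⟩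
  have := hu.2 h2 h3
  rw [this] at h4
  exact lt_irrefl _ h4

end dec

section pairs

variable {V : Type*} [Fintype V] [DecidableEq V] {Ω : Type*} [MeasurableSpace Ω]
variable (μ : Measure Ω) [IsProbabilityMeasure μ] {U : Sym2 Ω → ℝ} {κ η : ℝ}
variable {N : V → Finset V} {B γ : Finset V} {D : ℕ} {k : ℕ} {a₀ : V} {L : List (V × V)}
variable {o : V → ℕ} {fl : Bool}

/-- two path vertices `a` at the positions `s < t` on which the same function depends -/
lemma pair_aa (hN : Bip N B D) (hγ : γ ⊆ B) (hk : 2 ≤ k) (hg : GC N γ k) (ha₀ : a₀ ∉ B)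
    (hP : Pth N γ a₀ L) (hl : L.length ≤ k) {b : V} (hbγ : b ∈ γ) {s t : ℕ} (hst : s < t)
    (ht : t ≤ L.length)
    (h1 : ¬ Ind (lastA a₀ (L.drop s)) (hb μ U N o fl a₀ L b))
    (h2 : ¬ Ind (lastA a₀ (L.drop t)) (hb μ U N o fl a₀ L b)) :
    k ≤ t - s + 1 := by
  have hs1 := pth_lastA_notMem hN hγ ha₀ (pth_drop hP s)
  have ht1 := pth_lastA_notMem hN hγ ha₀ (pth_drop hP t)
  by_cases hb : b ∈ Bs L
  · obtain ⟨L₁, a, L', hL, hb1, hb2⟩ := pth_split hP hb
    have hlen : L.length = L₁.length + (L'.length + 1) := by rw [hL]; simp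
    have ei : lastA a₀ (L.drop L₁.length) = a := by
      have e : L.drop L₁.length = (b, a) :: L' := by rw [hL]; simp
      rw [e]; rfl
    have ei' : lastA a₀ (L.drop (L₁.length + 1)) = lastA a₀ L' := by
      have e : L.drop (L₁.length + 1) = L' := by rw [hL]; simp
      rw [e]
    have d1 := hb_dep_on μ hL hb1 h1
    have d2 := hb_dep_on μ hL hb1 h2
    have hbB : b ∈ B := hγ hbγ
    rcases d1 with d1 | d1
    · exact absurd (d1 ▸ hbB) hs1
    rcases d2 with d2 | d2
    · exact absurd (d2 ▸ hbB) ht1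
    have c1 := chord_on hN hγ hk hg hP hL hb1 (by omega : s ≤ L.length) d1.1
    have c2 := chord_on hN hγ hk hg hP hL hb1 ht d2.1
    rcases c1 with c1 | c1 | c1 | c1
    · exact absurd (by rw [c1]; exact ei) d1.2.2
    · exact absurd (by rw [c1]; exact ei') d1.2.1
    · rcases c2 with c2 | c2 | c2 | c2
      · exact absurd (by rw [c2]; exact ei) d2.2.2
      · exact absurd (by rw [c2]; exact ei') d2.2.1
      · omega
      · omega
    · rcases c2 with c2 | c2 | c2 | c2
      · exact absurd (by rw [c2]; exact ei) d2.2.2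
      · exact absurd (by rw [c2]; exact ei') d2.2.1
      · omega
      · omega
  · exact chord_off hN hγ hk hg hP hst ht hbγ hb (hb_dep_off μ hb h1) (hb_dep_off μ hb h2)

/-- a path vertex `b'` on which the function attached to `b` depends is `b` -/
lemma pair_b (hN : Bip N B D) (hγ : γ ⊆ B) (hP : Pth N γ a₀ L) {b u : V} (hbγ : b ∈ γ)
    (hu : u ∈ Bs L) (h1 : ¬ Ind u (hb μ U N o fl a₀ L b)) : u = b := by
  have huB : u ∈ B := hγ ((pth_Bs_subset hP) hu)
  by_cases hb : b ∈ Bs L
  · obtain ⟨L₁, a, L', hL, hb1, hb2⟩ := pth_split hP hb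
    rcases hb_dep_on μ hL hb1 h1 with d | d
    · exact d
    · exact absurd huB (hN.out b (hγ hbγ) u d.1)
  · exact absurd huB (hN.out b (hγ hbγ) u (hb_dep_off μ hb h1))

/-- the function attached to the path vertex `b` and a path vertex `a` -/
lemma pair_ba (hN : Bip N B D) (hγ : γ ⊆ B) (hk : 2 ≤ k) (hg : GC N γ k) (ha₀ : a₀ ∉ B)
    (hP : Pth N γ a₀ L) {b : V} (hbL : b ∈ Bs L) {t : ℕ} (ht : t ≤ L.length)
    (h1 : ¬ Ind (lastA a₀ (L.drop t)) (hb μ U N o fl a₀ L b)) :
    ∃ L₁ a L', L = L₁ ++ (b, a) :: L' ∧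
      ((t < L₁.length ∧ k ≤ L₁.length - t + 1) ∨ (L₁.length + 1 < t ∧ k ≤ t - L₁.length)) := by
  have hs1 := pth_lastA_notMem hN hγ ha₀ (pth_drop hP t)
  obtain ⟨L₁, a, L', hL, hb1, hb2⟩ := pth_split hP hbL
  have hlen : L.length = L₁.length + (L'.length + 1) := by rw [hL]; simp
  have ei : lastA a₀ (L.drop L₁.length) = a := by
    have e : L.drop L₁.length = (b, a) :: L' := by rw [hL]; simp
    rw [e]; rfl
  have ei' : lastA a₀ (L.drop (L₁.length + 1)) = lastA a₀ L' := by
    have e : L.drop (L₁.length + 1) = L' := by rw [hL]; simp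
    rw [e]
  have d1 := hb_dep_on μ hL hb1 h1
  have hbB : b ∈ B := hγ ((pth_Bs_subset hP) hbL)
  rcases d1 with d1 | d1
  · exact absurd (d1 ▸ hbB) hs1
  have c1 := chord_on hN hγ hk hg hP hL hb1 ht d1.1
  refine ⟨L₁, a, L', hL, ?_⟩
  rcases c1 with c1 | c1 | c1 | c1
  · exact absurd (by rw [c1]; exact ei) d1.2.2
  · exact absurd (by rw [c1]; exact ei') d1.2.1
  · exact Or.inl c1
  · exact Or.inr c1

/-- the last two interior vertices -/
lemma inn_append (b a : V) : ∀ {L₁ : List (V × V)}, L₁ ≠ [] →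
    ∃ X, inn (L₁ ++ [(b, a)]) = X ++ [a, b] := by
  intro L₁
  induction L₁ with
  | nil => intro h; exact absurd rfl h
  | cons x L₁ ih =>
    intro _
    obtain ⟨c, d⟩ := x
    cases L₁ with
    | nil => exact ⟨[c], rfl⟩
    | cons y L₁ =>
      obtain ⟨X, hX⟩ := ih (by simp)
      refine ⟨c :: y.2 :: X, ?_⟩
      have : inn ((c, d) :: y :: L₁ ++ [(b, a)]) = c :: y.2 :: inn (y :: L₁ ++ [(b, a)]) := rfl
      rw [this, hX]
      rfl

lemma notMem_take {X : List V} {a b : V} {l : List V} (hl : l = X ++ [a, b]) (hnd : l.Nodup)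
    {n : ℕ} (hn : n ≤ X.length) : a ∉ l.take n ∧ b ∉ l.take n := by
  subst hl
  rw [List.take_append_of_le_length hn]
  rw [List.nodup_append] at hnd
  constructor
  · intro h
    exact hnd.2.2 a (List.mem_of_mem_take h) a (by simp) rfl
  · intro h
    exact hnd.2.2 b (List.mem_of_mem_take h) b (by simp) rfl

lemma notMem_drop {X : List V} {a b : V} {l : List V} (hl : l = b :: a :: X) (hnd : l.Nodup)
    {n : ℕ} (hn : 2 ≤ n) : a ∉ l.drop n ∧ b ∉ l.drop n := by
  subst hl
  obtain ⟨m, rfl⟩ : ∃ m, n = m + 2 := ⟨n - 2, by omega⟩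
  rw [List.drop_succ_cons, List.drop_succ_cons]
  rw [List.nodup_cons, List.nodup_cons] at hnd
  constructor
  · intro h
    exact hnd.2.1 (List.mem_of_mem_drop h)
  · intro h
    exact hnd.1 (List.mem_cons_of_mem _ (List.mem_of_mem_drop h))

/-- two different vertices of a short path: the same function does not depend on both, if one of
them is an interior vertex -/
lemma short_pair (hN : Bip N B D) (hγ : γ ⊆ B) (hk : 2 ≤ k) (hg : GC N γ k) (ha₀ : a₀ ∉ B)
    (hP : Pth N γ a₀ L) (hl : L.length < k) {b : V} (hbγ : b ∈ γ) {u v : V} (hu : u ∈ inn L)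
    (hdu : ¬ Ind u (hb μ U N o fl a₀ L b))
    (hv : v ∈ Bs L ∨ ∃ t, t ≤ L.length ∧ v = lastA a₀ (L.drop t)) (hvu : v ≠ u) :
    Ind v (hb μ U N o fl a₀ L b) := by
  by_contra hdv
  rcases mem_inn (a₀ := a₀) hu with hu1 | ⟨s, hs1, hs2, hs3⟩
  · have hub : u = b := pair_b μ hN hγ hP hbγ hu1 hdu
    subst hub
    rcases hv with hv1 | ⟨t, ht1, ht2⟩
    · exact hvu (pair_b μ hN hγ hP hbγ hv1 hdv)
    · rw [ht2] at hdv
      obtain ⟨L₁, d, L', hL, hc⟩ := pair_ba μ hN hγ hk hg ha₀ hP hu1 ht1 hdv
      have hlenL : L.length = L₁.length + (L'.length + 1) := by rw [hL]; simp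
      omega
  · rcases hv with hv1 | ⟨t, ht1, ht2⟩
    · have hvb : v = b := pair_b μ hN hγ hP hbγ hv1 hdv
      subst hvb
      rw [hs3] at hdu
      obtain ⟨L₁, d, L', hL, hc⟩ := pair_ba μ hN hγ hk hg ha₀ hP hv1 hs2.le hdu
      have hlenL : L.length = L₁.length + (L'.length + 1) := by rw [hL]; simp
      omega
    · have hst : s ≠ t := by
        rintro rfl
        exact hvu (by rw [ht2, hs3])
      rw [ht2] at hdv
      rw [hs3] at hdu
      rcases Nat.lt_or_gt_of_ne hst with h | h
      · have := pair_aa μ hN hγ hk hg ha₀ hP hl.le hbγ h ht1 hdu hdv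
        omega
      · have := pair_aa μ hN hγ hk hg ha₀ hP hl.le hbγ h hs2.le hdv hdu
        omega

end pairs

end Vale.Agent.P050.Dense.H602

namespace Vale.Agent.P050.Dense

open Vale.Agent.P050

section

variable {V : Type*} [Fintype V] [DecidableEq V] {Ω : Type*} [MeasurableSpace Ω]
variable (μ : Measure Ω) [IsProbabilityMeasure μ] {U : Sym2 Ω → ℝ} {κ η : ℝ}

open H602

/-- M5c -/
theorem JJ_bound2 {N : V → Finset V} {B γ : Finset V} {D : ℕ} (hN : Bip N B D)
    (hU : Ker μ U κ η) {σ : ℝ} (hn : Num D κ η σ) (hσ : 0 < σ)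
    (hγ : γ ⊆ B) {o : V → ℕ} (ho : Function.Injective o)
    {k : ℕ} (hk : 2 ≤ k) (hg : GC N γ k) {a₀ : V} {L : List (V × V)} (ha₀ : a₀ ∉ B)
    (hP : Pth N γ a₀ L) (hl : L.length = k) :
    |∫ z, JJ μ U N o false γ a₀ L z ∂(piM V μ)| ≤ 2 ^ k * σ ^ (γ.card - k) * ck μ U k := by
  have hne : L ≠ [] := by
    intro h; rw [h, List.length_nil] at hl; omega
  have hlen := length_inn hne
  have hnd1 := nodup_left hN hγ hk hg ha₀ hP hl.le hne
  have hnd2 := nodup_right hN hγ hk hg ha₀ hP hl.le hne
  have hndi : (inn L).Nodup := (List.nodup_cons.mp hnd1).2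
  -- the middle
  obtain ⟨p, m, q, hpq, hp, hq⟩ : ∃ p m q, inn L = p ++ m :: q ∧ p.length + 1 = k ∧
      q.length + 1 = k := by
    have h1 : k - 1 < (inn L).length := by omega
    refine ⟨(inn L).take (k - 1), (inn L)[k - 1], (inn L).drop (k - 1 + 1), ?_, ?_, ?_⟩
    · rw [List.getElem_cons_drop, List.take_append_drop]
    · rw [List.length_take]; omega
    · rw [List.length_drop]; omega
  have hptake : p = (inn L).take (k - 1) := by
    rw [hpq, List.take_append_of_le_length (by omega), List.take_of_length_le (by omega)]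
  have hqdrop : q = (inn L).drop k := by
    have : p ++ m :: q = (p ++ [m]) ++ q := by simp
    rw [hpq, this, List.drop_append_of_le_length (by simp; omega),
      List.drop_of_length_le (by simp; omega), List.nil_append]
  have hJ : ∀ z, JJ μ U N o false γ a₀ L z = pp U (lastA a₀ L) p m z * pp U m q a₀ z *
      ∏ b ∈ γ, hb μ U N o false a₀ L b z := by
    intro z
    rw [JJ_eq μ hP hne, hpq, pp_split]
  simp only [hJ]
  have key := path_bound2 μ hU.good γ (hb μ U N o false a₀ L) (bb σ L)
    (fun b _ => bm_hb μ hU.good N o false a₀ L b) (fun b _ => bb_pos hσ L b)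
    (fun b hb' z => abs_hb_le μ hU hN hn hγ hP hb' z) (a := lastA a₀ L) (m := m) (b := a₀) hp hq
    (by rw [List.cons_append, ← hpq]; exact hnd1) (by rw [← hpq]; exact hnd2) ?_ ?_
  · rw [prod_bb hP, hl] at key
    exact key
  · -- first half
    intro b hbγ u hu hdu v hv hvu
    by_contra hdv
    rw [List.cons_append, ← hpq] at hv
    have hui : u ∈ inn L := by rw [hpq]; simp [hu]
    -- the last two interior vertices are not in `p`
    have hlast : ∀ L₁ c d, L = L₁ ++ [(c, d)] → u ≠ c ∧ u ≠ d := by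
      intro L₁ c d hL
      have hL1 : L₁ ≠ [] := by
        intro h; rw [hL, h] at hl; simp at hl; omega
      obtain ⟨X, hX⟩ := inn_append c d hL1
      rw [← hL] at hX
      have hXl : X.length + 3 = 2 * k := by
        rw [hX] at hlen; simp at hlen; omega
      have := notMem_take hX hndi (n := k - 1) (by omega)
      rw [← hptake] at this
      exact ⟨fun h => this.2 (h ▸ hu), fun h => this.1 (h ▸ hu)⟩
    have hvrep : v ∈ Bs L ∨ ∃ t, t < L.length ∧ v = lastA a₀ (L.drop t) := by
      rw [List.mem_cons] at hv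
      rcases hv with hv | hv
      · right; exact ⟨0, by omega, by rw [List.drop_zero]; exact hv⟩
      · rcases mem_inn (a₀ := a₀) hv with h | ⟨t, _, h2, h3⟩
        · exact Or.inl h
        · exact Or.inr ⟨t, h2, h3⟩
    rcases mem_inn (a₀ := a₀) hui with hu1 | ⟨s, hs1, hs2, hs3⟩
    · have hub : u = b := pair_b μ hN hγ hP hbγ hu1 hdu
      subst hub
      rcases hvrep with hv1 | ⟨t, ht1, ht2⟩
      · exact hvu (pair_b μ hN hγ hP hbγ hv1 hdv)
      · rw [ht2] at hdv
        obtain ⟨L₁, d, L', hL, hc⟩ := pair_ba μ hN hγ hk hg ha₀ hP hu1 ht1.le hdv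
        have hlenL : L.length = L₁.length + (L'.length + 1) := by rw [hL]; simp
        have hL' : L' = [] := by
          apply List.eq_nil_of_length_eq_zero
          omega
        subst hL'
        exact (hlast L₁ u d hL).1 rfl
    · rcases hvrep with hv1 | ⟨t, ht1, ht2⟩
      · have hvb : v = b := pair_b μ hN hγ hP hbγ hv1 hdv
        subst hvb
        rw [hs3] at hdu
        obtain ⟨L₁, d, L', hL, hc⟩ := pair_ba μ hN hγ hk hg ha₀ hP hv1 hs2.le hdu
        have hlenL : L.length = L₁.length + (L'.length + 1) := by rw [hL]; simp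
        omega
      · have hst : s ≠ t := by
          rintro rfl
          exact hvu (by rw [ht2, hs3])
        rw [ht2] at hdv
        rw [hs3] at hdu
        have hs0 : s = k - 1 := by
          rcases Nat.lt_or_gt_of_ne hst with h | h
          · have := pair_aa μ hN hγ hk hg ha₀ hP hl.le hbγ h ht1.le hdu hdv
            omega
          · have := pair_aa μ hN hγ hk hg ha₀ hP hl.le hbγ h hs2.le hdv hdu
            omega
        -- `u` is the last but one interior vertex
        have h1 : k - 1 < L.length := by omega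
        obtain ⟨c, d, hcd⟩ : ∃ c d, L.drop (k - 1) = [(c, d)] := by
          have h2 : (L.drop (k - 1)).length = 1 := by rw [List.length_drop]; omega
          obtain ⟨x, hx⟩ := List.length_eq_one_iff.mp h2
          exact ⟨x.1, x.2, hx⟩
        have hL : L = L.take (k - 1) ++ [(c, d)] := by
          rw [← hcd, List.take_append_drop]
        have := (hlast _ c d hL).2
        apply this
        rw [hs3, hs0, hcd]
        rfl
  · -- second half
    intro b hbγ u hu hdu v hv hvu
    by_contra hdv
    rw [← hpq] at hv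
    have hui : u ∈ inn L := by rw [hpq]; simp [hu]
    have hfirst : ∀ c d x L', L = (c, d) :: x :: L' → u ≠ c ∧ u ≠ x.2 := by
      intro c d x L' hL
      have hX : inn L = c :: x.2 :: inn (x :: L') := by rw [hL]; rfl
      have := notMem_drop hX hndi (n := k) hk
      rw [← hqdrop] at this
      exact ⟨fun h => this.2 (h ▸ hu), fun h => this.1 (h ▸ hu)⟩
    have hform : ∃ c d x L', L = (c, d) :: x :: L' := by
      match L, hl with
      | [], hl => simp at hl; omega
      | [y], hl => simp at hl; omega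
      | y :: x :: L', _ => exact ⟨y.1, y.2, x, L', rfl⟩
    obtain ⟨c, d, x, L'', hLf⟩ := hform
    have hvrep : v ∈ Bs L ∨ ∃ t, 1 ≤ t ∧ t ≤ L.length ∧ v = lastA a₀ (L.drop t) := by
      rw [List.mem_append] at hv
      rcases hv with hv | hv
      · rcases mem_inn (a₀ := a₀) hv with h | ⟨t, h1, h2, h3⟩
        · exact Or.inl h
        · exact Or.inr ⟨t, h1, h2.le, h3⟩
      · right
        rw [List.mem_singleton] at hv
        exact ⟨L.length, by omega, le_rfl, by rw [List.drop_length]; exact hv⟩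
    rcases mem_inn (a₀ := a₀) hui with hu1 | ⟨s, hs1, hs2, hs3⟩
    · have hub : u = b := pair_b μ hN hγ hP hbγ hu1 hdu
      subst hub
      rcases hvrep with hv1 | ⟨t, ht0, ht1, ht2⟩
      · exact hvu (pair_b μ hN hγ hP hbγ hv1 hdv)
      · rw [ht2] at hdv
        obtain ⟨L₁, e, L', hL, hc⟩ := pair_ba μ hN hγ hk hg ha₀ hP hu1 ht1 hdv
        have hlenL : L.length = L₁.length + (L'.length + 1) := by rw [hL]; simp
        have hL' : L₁ = [] := by
          apply List.eq_nil_of_length_eq_zero
          omega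
        subst hL'
        rw [List.nil_append, hLf] at hL
        have := (hfirst c d x L'' hLf).1
        apply this
        have := (List.cons.inj hL).1
        exact (Prod.mk.inj this).1.symm
    · rcases hvrep with hv1 | ⟨t, ht0, ht1, ht2⟩
      · have hvb : v = b := pair_b μ hN hγ hP hbγ hv1 hdv
        subst hvb
        rw [hs3] at hdu
        obtain ⟨L₁, e, L', hL, hc⟩ := pair_ba μ hN hγ hk hg ha₀ hP hv1 hs2.le hdu
        have hlenL : L.length = L₁.length + (L'.length + 1) := by rw [hL]; simp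
        omega
      · have hst : s ≠ t := by
          rintro rfl
          exact hvu (by rw [ht2, hs3])
        rw [ht2] at hdv
        rw [hs3] at hdu
        have hs0 : s = 1 := by
          rcases Nat.lt_or_gt_of_ne hst with h | h
          · have := pair_aa μ hN hγ hk hg ha₀ hP hl.le hbγ h ht1 hdu hdv
            omega
          · have := pair_aa μ hN hγ hk hg ha₀ hP hl.le hbγ h hs2.le hdv hdu
            omega
        apply (hfirst c d x L'' hLf).2
        rw [hs3, hs0, hLf]
        rfl

/-- M5d (second copy; the official one is in `R2/H612/JJ1.lean`) -/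
theorem H602.JJ_bound1 {N : V → Finset V} {B γ : Finset V} {D : ℕ} (hN : Bip N B D)
    (hU : Ker μ U κ η) {σ : ℝ} (hn : Num D κ η σ) (hσ : 0 < σ)
    (hγ : γ ⊆ B) {o : V → ℕ} (ho : Function.Injective o)
    {k : ℕ} (hk : 2 ≤ k) (hg : GC N γ k) {g : Ω → ℝ} (hgm : BM g)
    {a₀ : V} {L : List (V × V)} (ha₀ : a₀ ∉ B)
    (hP : Pth N γ a₀ L) (hl : L.length = (k + 1) / 2) :
    |∫ z, g (z a₀) * JJ μ U N o true γ a₀ L z ∂(piM V μ)| ≤
      2 ^ ((k + 1) / 2) * σ ^ (γ.card - (k + 1) / 2) * Real.sqrt (ck μ U k) *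
        Real.sqrt (∫ s, g s ^ 2 ∂μ) := by
  have hne : L ≠ [] := by
    intro h; rw [h, List.length_nil] at hl; omega
  have hlk : L.length < k := by omega
  have hlen := length_inn hne
  have hnd := nodup_vts hN hγ hk hg ha₀ hP hlk hne
  have hvmem : ∀ v, v ∈ lastA a₀ L :: inn L ++ [a₀] →
      v ∈ Bs L ∨ ∃ t, t ≤ L.length ∧ v = lastA a₀ (L.drop t) := by
    intro v hv
    rw [List.cons_append, List.mem_cons, List.mem_append, List.mem_singleton] at hv
    rcases hv with hv | hv | hv
    · right; exact ⟨0, by omega, by rw [List.drop_zero]; exact hv⟩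
    · rcases mem_inn (a₀ := a₀) hv with h | ⟨t, _, h2, h3⟩
      · exact Or.inl h
      · exact Or.inr ⟨t, h2.le, h3⟩
    · right; exact ⟨L.length, le_rfl, by rw [List.drop_length]; exact hv⟩
  rcases Nat.even_or_odd k with hev | hodd
  · -- even: the whole path
    obtain ⟨j, hj⟩ := hev
    have hlj : L.length = j := by omega
    have hJ : ∀ z, g (z a₀) * JJ μ U N o true γ a₀ L z =
        g (z a₀) * pp U a₀ (inn L).reverse (lastA a₀ L) z *
          ∏ b ∈ γ, hb μ U N o true a₀ L b z := by
      intro z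
      rw [JJ_eq μ hP hne, pp_reverse (lastA a₀ L) a₀ (inn L)]
      ring
    simp only [hJ]
    have hrev : (a₀ :: (inn L).reverse ++ [lastA a₀ L]) =
        (lastA a₀ L :: inn L ++ [a₀]).reverse := by simp
    have key := path_bound1 μ hU.good hgm γ (hb μ U N o true a₀ L) (bb σ L)
      (fun b _ => bm_hb μ hU.good N o true a₀ L b) (fun b _ => bb_pos hσ L b)
      (fun b hb' z => abs_hb_le μ hU hN hn hγ hP hb' z) (a := a₀) (b := lastA a₀ L)
      (p := (inn L).reverse) (k := k) (by rw [List.length_reverse]; omega)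
      (by rw [hrev, List.nodup_reverse]; exact hnd) ?_
    · rw [prod_bb hP, hl] at key
      exact key
    · intro b hbγ u hu hdu v hv hvu
      rw [hrev, List.mem_reverse] at hv
      rw [List.mem_reverse] at hu
      exact short_pair μ hN hγ hk hg ha₀ hP hlk hbγ hu hdu (hvmem v hv) hvu
  · -- odd: the last edge becomes a decoration
    obtain ⟨j, hj⟩ := hodd
    have hlj : L.length = j + 1 := by omega
    obtain ⟨b₁, a₁, x, L'', hLf⟩ : ∃ c d x L', L = (c, d) :: x :: L' := by
      match L, hlj with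
      | [], hl => simp at hl
      | [y], hl => simp at hl; omega
      | y :: x :: L', _ => exact ⟨y.1, y.2, x, L', rfl⟩
    set q : List V := x.2 :: inn (x :: L'') with hqdef
    have hinn : inn L = b₁ :: q := by rw [hLf]; rfl
    have hlast : lastA a₀ L = a₁ := by rw [hLf]; rfl
    set h' : Option V → (V → Ω) → ℝ := fun j z => match j with
      | none => U s(z a₁, z b₁)
      | some b => hb μ U N o true a₀ L b z with hh'
    set β' : Option V → ℝ := fun j => match j with
      | none => 1
      | some b => bb σ L b with hβ'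
    have hJ : ∀ z, g (z a₀) * JJ μ U N o true γ a₀ L z =
        g (z a₀) * pp U a₀ q.reverse b₁ z * ∏ j ∈ insertNone γ, h' j z := by
      intro z
      rw [JJ_eq μ hP hne, hinn, hlast, pp_cons, pp_reverse b₁ a₀ q, prod_insertNone]
      simp only [hh']
      ring
    simp only [hJ]
    have hnd' : (b₁ :: q ++ [a₀]).Nodup := by
      have : (lastA a₀ L :: (inn L ++ [a₀])).Nodup := hnd
      rw [hinn] at this
      exact (List.nodup_cons.mp this).2
    have ha₁ : a₁ ∉ b₁ :: q ++ [a₀] := by
      have : (lastA a₀ L :: (inn L ++ [a₀])).Nodup := hnd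
      rw [hinn, hlast] at this
      exact (List.nodup_cons.mp this).1
    have hrev : (a₀ :: q.reverse ++ [b₁]) = (b₁ :: q ++ [a₀]).reverse := by simp
    have hqlen : q.length + 1 = k := by
      rw [hinn, List.length_cons] at hlen; omega
    have key := path_bound1 μ hU.good hgm (insertNone γ) h' β'
      (by
        intro j hj
        match j, hj with
        | none, _ => exact bm_U hU.good a₁ b₁
        | some b, _ => exact bm_hb μ hU.good N o true a₀ L b)
      (by
        intro j hj
        match j, hj with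
        | none, _ => exact one_pos
        | some b, _ => exact bb_pos hσ L b)
      (by
        intro j hj z
        match j, hj with
        | none, _ => exact hU.good.bdd _
        | some b, hj =>
          exact abs_hb_le μ hU hN hn hγ hP (by simpa using hj) z)
      (a := a₀) (b := b₁) (p := q.reverse) (k := k) (by rw [List.length_reverse]; exact hqlen)
      (by rw [hrev, List.nodup_reverse]; exact hnd') ?_
    · rw [prod_insertNone] at key
      simp only [hβ', one_mul] at key
      rw [prod_bb hP, hl] at key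
      exact key
    · intro j hj u hu hdu v hv hvu
      rw [hrev, List.mem_reverse] at hv
      rw [List.mem_reverse] at hu
      match j, hj with
      | none, _ =>
        exfalso
        apply hdu
        intro z y
        have h1 : a₁ ≠ u := by
          rintro rfl; exact ha₁ (by simp [hu])
        have h2 : b₁ ≠ u := by
          rintro rfl
          have : (b₁ :: (q ++ [a₀])).Nodup := hnd'
          exact (List.nodup_cons.mp this).1 (by simp [hu])
        simp only [hh', Function.update_of_ne h1, Function.update_of_ne h2]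
      | some b, hj =>
        have hbγ : b ∈ γ := by simpa using hj
        have hu' : u ∈ inn L := by rw [hinn]; simp [hu]
        have hv' : v ∈ lastA a₀ L :: inn L ++ [a₀] := by
          rw [List.cons_append, hinn]
          exact List.mem_cons_of_mem _ hv
        exact short_pair μ hN hγ hk hg ha₀ hP hlk hbγ hu' hdu (hvmem v hv') hvu

end

end Vale.Agent.P050.Dense
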