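import Vale.Agent.P050.R2.H300.Basic
import Vale.Agent.P050.R2.H261.Close
import Vale.Agent.P050.R2.H612.M4

set_option linter.all false

/-!
Dense targets, M5c/M5d: combinatorics of the vertex lists of paths.
-/

open MeasureTheory Finset

namespace Vale.Agent.P050.Dense.H602

open Vale.Agent.P050 Vale.Agent.P050.Dense

section comb

variable {V : Type*} [Fintype V] [DecidableEq V]

/-- the interior vertices of a path, in the order `b_j, a_{j-1}, …, b₁` -/
def inn : List (V × V) → List V
  | [] => []
  | (b, _) :: [] => [b]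
  | (b, _) :: x :: L => b :: x.2 :: inn (x :: L)

lemma inn_single (b a : V) : inn [(b, a)] = [b] := rfl
lemma inn_cons (b a : V) (x : V × V) (L : List (V × V)) :
    inn ((b, a) :: x :: L) = b :: x.2 :: inn (x :: L) := rfl

lemma vts_eq (a₀ : V) : ∀ {L : List (V × V)}, L ≠ [] →
    vts a₀ L = lastA a₀ L :: inn L ++ [a₀] := by
  intro L
  induction L with
  | nil => intro h; exact absurd rfl h
  | cons x L ih =>
    intro _
    obtain ⟨b, a⟩ := x
    cases L with
    | nil => rfl
    | cons y L =>
      have := ih (by simp)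
      simp only [vts, lastA] at this ⊢
      rw [this]
      simp [inn]

lemma length_inn : ∀ {L : List (V × V)}, L ≠ [] → (inn L).length + 1 = 2 * L.length := by
  intro L
  induction L with
  | nil => intro h; exact absurd rfl h
  | cons x L ih =>
    intro _
    obtain ⟨b, a⟩ := x
    cases L with
    | nil => rfl
    | cons y L =>
      have := ih (by simp)
      simp only [inn, List.length_cons] at this ⊢
      omega

lemma Bs_nil : Bs ([] : List (V × V)) = ∅ := rfl

lemma Bs_cons (b a : V) (L : List (V × V)) : Bs ((b, a) :: L) = insert b (Bs L) := by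
  simp [Bs]

lemma mem_Bs {b : V} {L : List (V × V)} : b ∈ Bs L ↔ ∃ a, (b, a) ∈ L := by
  simp [Bs]

lemma Bs_append (L₁ L₂ : List (V × V)) : Bs (L₁ ++ L₂) = Bs L₁ ∪ Bs L₂ := by
  ext b; simp [Bs]

lemma Bs_sublist {L₁ L₂ : List (V × V)} (h : L₁.Sublist L₂) : Bs L₁ ⊆ Bs L₂ := by
  intro b hb
  rw [mem_Bs] at hb ⊢
  obtain ⟨a, ha⟩ := hb
  exact ⟨a, h.subset ha⟩

variable {N : V → Finset V} {B γ : Finset V} {D : ℕ}

lemma pth_suffix {a₀ : V} {L₁ L₂ : List (V × V)} (h : Pth N γ a₀ (L₁ ++ L₂)) : Pth N γ a₀ L₂ := by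
  induction L₁ with
  | nil => exact h
  | cons x L₁ ih =>
    obtain ⟨b, a⟩ := x
    exact ih h.1

lemma pth_drop {a₀ : V} {L : List (V × V)} (h : Pth N γ a₀ L) (t : ℕ) :
    Pth N γ a₀ (L.drop t) := by
  rw [← List.take_append_drop t L] at h
  exact pth_suffix h

lemma pth_lastA_notMem {a₀ : V} (hN : Bip N B D) (hγ : γ ⊆ B) (ha₀ : a₀ ∉ B)
    {L : List (V × V)} (h : Pth N γ a₀ L) : lastA a₀ L ∉ B := by
  cases L with
  | nil => exact ha₀
  | cons x L =>
    obtain ⟨b, a⟩ := x
    exact hN.out b (hγ h.2.1) a h.2.2.2.2.1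

lemma pth_Bs_subset {a₀ : V} {L : List (V × V)} (h : Pth N γ a₀ L) : Bs L ⊆ γ := by
  induction L with
  | nil => simp [Bs]
  | cons x L ih =>
    obtain ⟨b, a⟩ := x
    rw [Bs_cons]
    exact insert_subset h.2.1 (ih h.1)

lemma pth_card_Bs {a₀ : V} {L : List (V × V)} (h : Pth N γ a₀ L) : (Bs L).card = L.length := by
  induction L with
  | nil => simp [Bs]
  | cons x L ih =>
    obtain ⟨b, a⟩ := x
    rw [Bs_cons, card_insert_of_notMem h.2.2.1, ih h.1, List.length_cons]

/-- the position of a path vertex `b` -/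
lemma pth_split {a₀ : V} {L : List (V × V)} (h : Pth N γ a₀ L) {b : V} (hb : b ∈ Bs L) :
    ∃ L₁ a L', L = L₁ ++ (b, a) :: L' ∧ b ∉ Bs L₁ ∧ b ∉ Bs L' := by
  induction L with
  | nil => simp [Bs] at hb
  | cons x L ih =>
    obtain ⟨c, a⟩ := x
    by_cases hbc : b = c
    · subst hbc
      exact ⟨[], a, L, rfl, by simp [Bs], h.2.2.1⟩
    · rw [Bs_cons, mem_insert] at hb
      obtain ⟨L₁, a', L', h1, h2, h3⟩ := ih h.1 (hb.resolve_left hbc)
      refine ⟨(c, a) :: L₁, a', L', by rw [h1]; rfl, ?_, h3⟩
      rw [Bs_cons, mem_insert]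
      rintro (h4 | h4)
      · exact hbc h4
      · exact h2 h4

/-- the interior vertices -/
lemma mem_inn {a₀ : V} {L : List (V × V)} {u : V} (hu : u ∈ inn L) :
    u ∈ Bs L ∨ ∃ t, 1 ≤ t ∧ t < L.length ∧ u = lastA a₀ (L.drop t) := by
  induction L with
  | nil => simp [inn] at hu
  | cons x L ih =>
    obtain ⟨b, a⟩ := x
    cases L with
    | nil =>
      simp only [inn, List.mem_singleton] at hu
      left; rw [hu, Bs_cons]; exact mem_insert_self _ _
    | cons y L =>
      rw [inn_cons, List.mem_cons, List.mem_cons] at hu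
      rcases hu with hu | hu | hu
      · left; rw [hu, Bs_cons]; exact mem_insert_self _ _
      · right
        refine ⟨1, le_rfl, by simp, ?_⟩
        rw [hu]
        obtain ⟨c, d⟩ := y
        rfl
      · rcases ih hu with h | ⟨t, ht1, ht2, ht3⟩
        · left; rw [Bs_cons]; exact mem_insert_of_mem h
        · right
          refine ⟨t + 1, by omega, by simp only [List.length_cons] at ht2 ⊢; omega, ?_⟩
          rw [List.drop_succ_cons]
          exact ht3

lemma Bs_subset_inn {L : List (V × V)} {b : V} (hb : b ∈ Bs L) : b ∈ inn L := by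
  induction L with
  | nil => simp [Bs] at hb
  | cons x L ih =>
    obtain ⟨c, a⟩ := x
    rw [Bs_cons, mem_insert] at hb
    cases L with
    | nil =>
      rcases hb with rfl | hb
      · simp [inn]
      · simp [Bs] at hb
    | cons y L =>
      rw [inn_cons]
      rcases hb with rfl | hb
      · simp
      · simp [ih hb]

variable {k : ℕ} {a₀ : V}

/-- coinciding path vertices -/
lemma close_drop (hN : Bip N B D) (hγ : γ ⊆ B) (hk : 2 ≤ k) (hg : GC N γ k)
    {L : List (V × V)} (hP : Pth N γ a₀ L) {s t : ℕ} (hst : s < t) (ht : t ≤ L.length)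
    (h : lastA a₀ (L.drop s) = lastA a₀ (L.drop t)) : k ≤ t - s := by
  have e : L.drop s = (L.drop s).take (t - s) ++ L.drop t := by
    conv_lhs => rw [← List.take_append_drop (t - s) (L.drop s)]
    rw [List.drop_drop]
    congr 2
    omega
  have hlen : ((L.drop s).take (t - s)).length = t - s := by
    rw [List.length_take, List.length_drop]; omega
  have hP' : Pth N γ a₀ ((L.drop s).take (t - s) ++ L.drop t) := by
    rw [← e]; exact pth_drop hP s
  have := pth_close hN hγ hk hg hP' (by
    intro h0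
    rw [h0, List.length_nil] at hlen
    omega) (by rw [← e]; exact h)
  rwa [hlen] at this

/-- a vertex `b` outside the segment which is joined to both ends -/
lemma close_drop' (hN : Bip N B D) (hγ : γ ⊆ B) (hk : 2 ≤ k) (hg : GC N γ k)
    {L : List (V × V)} (hP : Pth N γ a₀ L) {s t : ℕ} (hst : s < t) (ht : t ≤ L.length)
    {b : V} (hb : b ∈ γ) (hbL : b ∉ Bs ((L.drop s).take (t - s)))
    (h1 : lastA a₀ (L.drop s) ∈ N b) (h2 : lastA a₀ (L.drop t) ∈ N b) : k ≤ t - s + 1 := by
  have e : L.drop s = (L.drop s).take (t - s) ++ L.drop t := by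
    conv_lhs => rw [← List.take_append_drop (t - s) (L.drop s)]
    rw [List.drop_drop]
    congr 2
    omega
  have hlen : ((L.drop s).take (t - s)).length = t - s := by
    rw [List.length_take, List.length_drop]; omega
  have hP' : Pth N γ a₀ ((L.drop s).take (t - s) ++ L.drop t) := by
    rw [← e]; exact pth_drop hP s
  have := pth_close' hN hγ hk hg hP' (by
    intro h0
    rw [h0, List.length_nil] at hlen
    omega) hb hbL (by rw [← e]; exact h1) h2
  rwa [hlen] at this

/-- the list without its last vertex -/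
lemma nodup_left (hN : Bip N B D) (hγ : γ ⊆ B) (hk : 2 ≤ k) (hg : GC N γ k) (ha₀ : a₀ ∉ B) :
    ∀ {L : List (V × V)}, Pth N γ a₀ L → L.length ≤ k → L ≠ [] →
      (lastA a₀ L :: inn L).Nodup := by
  intro L
  induction L with
  | nil => intro _ _ h; exact absurd rfl h
  | cons x L ih =>
    intro hP hl _
    obtain ⟨b, a⟩ := x
    have hbB : b ∈ B := hγ hP.2.1
    have haB : a ∉ B := hN.out b hbB a hP.2.2.2.2.1
    have hfirst : lastA a₀ ((b, a) :: L) ∉ inn ((b, a) :: L) := by
      intro hmem
      rcases mem_inn (a₀ := a₀) hmem with h | ⟨t, ht1, ht2, ht3⟩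
      · exact haB (hγ ((pth_Bs_subset hP) h))
      · have := close_drop hN hγ hk hg hP (s := 0) (t := t) (by omega) ht2.le
          (by rw [List.drop_zero]; exact ht3)
        omega
    rw [List.nodup_cons]
    refine ⟨hfirst, ?_⟩
    cases L with
    | nil => simp [inn]
    | cons y L =>
      have h1 := ih hP.1 (by simp only [List.length_cons] at hl ⊢; omega) (by simp)
      obtain ⟨c, d⟩ := y
      rw [inn_cons]
      have h2 : (d :: inn ((c, d) :: L)).Nodup := h1
      rw [List.nodup_cons]
      refine ⟨?_, h2⟩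
      intro hmem
      rw [List.mem_cons] at hmem
      rcases hmem with hmem | hmem
      · have := pth_lastA_notMem hN hγ ha₀ hP.1
        apply this
        have e : lastA a₀ ((c, d) :: L) = d := rfl
        have hm : b = d := hmem
        rw [e, ← hm]
        exact hbB
      · rcases mem_inn (a₀ := a₀) hmem with h | ⟨t, ht1, ht2, ht3⟩
        · exact hP.2.2.1 h
        · have := pth_lastA_notMem hN hγ ha₀ (pth_drop hP.1 t)
          rw [← ht3] at this
          exact this hbB

/-- the list without its first vertex -/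
lemma nodup_right (hN : Bip N B D) (hγ : γ ⊆ B) (hk : 2 ≤ k) (hg : GC N γ k) (ha₀ : a₀ ∉ B)
    {L : List (V × V)} (hP : Pth N γ a₀ L) (hl : L.length ≤ k) (hne : L ≠ []) :
      (inn L ++ [a₀]).Nodup := by
  have h1 := nodup_left hN hγ hk hg ha₀ hP hl hne
  rw [List.nodup_cons] at h1
  rw [List.nodup_append]
  refine ⟨h1.2, by simp, ?_⟩
  intro u hu v hv huv
  rw [List.mem_singleton] at hv
  subst hv
  subst huv
  rcases mem_inn (a₀ := u) hu with h | ⟨t, ht1, ht2, ht3⟩
  · exact ha₀ (hγ ((pth_Bs_subset hP) h))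
  · have := close_drop hN hγ hk hg hP (s := t) (t := L.length) ht2 le_rfl
      (by rw [List.drop_length]; exact ht3.symm)
    omega

/-- the whole list, short paths -/
lemma nodup_vts (hN : Bip N B D) (hγ : γ ⊆ B) (hk : 2 ≤ k) (hg : GC N γ k) (ha₀ : a₀ ∉ B)
    {L : List (V × V)} (hP : Pth N γ a₀ L) (hl : L.length < k) (hne : L ≠ []) :
      (lastA a₀ L :: inn L ++ [a₀]).Nodup := by
  have h1 := nodup_left hN hγ hk hg ha₀ hP hl.le hne
  have h2 := nodup_right hN hγ hk hg ha₀ hP hl.le hne
  rw [List.nodup_cons] at h1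
  rw [List.cons_append, List.nodup_cons]
  refine ⟨?_, h2⟩
  intro hmem
  rw [List.mem_append] at hmem
  rcases hmem with hmem | hmem
  · exact h1.1 hmem
  · rw [List.mem_singleton] at hmem
    have hlen : 0 < L.length := List.length_pos_iff.mpr hne
    have := close_drop hN hγ hk hg hP (s := 0) (t := L.length) hlen le_rfl
      (by rw [List.drop_length, List.drop_zero]; exact hmem)
    omega

/-- incidences of a vertex outside the path -/
lemma chord_off (hN : Bip N B D) (hγ : γ ⊆ B) (hk : 2 ≤ k) (hg : GC N γ k)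
    {L : List (V × V)} (hP : Pth N γ a₀ L) {s t : ℕ} (hst : s < t) (ht : t ≤ L.length)
    {b : V} (hb : b ∈ γ) (hbL : b ∉ Bs L)
    (h1 : lastA a₀ (L.drop s) ∈ N b) (h2 : lastA a₀ (L.drop t) ∈ N b) : k ≤ t - s + 1 := by
  refine close_drop' hN hγ hk hg hP hst ht hb ?_ h1 h2
  intro h
  exact hbL (Bs_sublist ((List.take_sublist _ _).trans (List.drop_sublist _ _)) h)

/-- additional incidences of a path vertex `b` -/
lemma chord_on (hN : Bip N B D) (hγ : γ ⊆ B) (hk : 2 ≤ k) (hg : GC N γ k)
    {L L₁ L' : List (V × V)} {b a : V} (hP : Pth N γ a₀ L) (hL : L = L₁ ++ (b, a) :: L')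
    (hb1 : b ∉ Bs L₁) {t : ℕ} (ht : t ≤ L.length) (h : lastA a₀ (L.drop t) ∈ N b) :
    t = L₁.length ∨ t = L₁.length + 1 ∨ (t < L₁.length ∧ k ≤ L₁.length - t + 1) ∨
      (L₁.length + 1 < t ∧ k ≤ t - L₁.length) := by
  have hPs : Pth N γ a₀ ((b, a) :: L') := by rw [hL] at hP; exact pth_suffix hP
  have hbγ : b ∈ γ := hPs.2.1
  have hlen : L.length = L₁.length + (L'.length + 1) := by rw [hL]; simp
  rcases lt_trichotomy t L₁.length with h1 | h1 | h1
  · right; right; left
    refine ⟨h1, ?_⟩
    refine close_drop' hN hγ hk hg hP h1 (by omega) hbγ ?_ h ?_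
    · intro hmem
      apply hb1
      refine Bs_sublist ?_ hmem
      have e : (L.drop t).take (L₁.length - t) = L₁.drop t := by
        rw [hL, List.drop_append_of_le_length h1.le, List.take_append_of_le_length]
        · rw [List.take_of_length_le]; rw [List.length_drop]
        · rw [List.length_drop]
      rw [e]
      exact List.drop_sublist _ _
    · have e : L.drop L₁.length = (b, a) :: L' := by rw [hL]; simp
      rw [e]
      exact hPs.2.2.2.2.1
  · left; exact h1
  · by_cases h2 : t = L₁.length + 1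
    · right; left; exact h2
    · right; right; right
      have h3 : L₁.length + 1 < t := by omega
      refine ⟨h3, ?_⟩
      have e : L.drop (L₁.length + 1) = L' := by rw [hL]; simp
      have := close_drop' hN hγ hk hg hP (s := L₁.length + 1) (t := t) h3 ht hbγ (by
        intro hmem
        rw [e] at hmem
        exact hPs.2.2.1 (Bs_sublist (List.take_sublist _ _) hmem)) (by
        rw [e]; exact hPs.2.2.2.1) h
      omega

end comb

end Vale.Agent.P050.Dense.H602
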