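import Vale.Agent.P050.Bdl.B1

set_option linter.all false

/-!
Two decorated half paths between `a`, `m` and `m`, `b` (possibly `a = b`), each with `k` edges,
coupled by a bounded function of all non-interior coordinates: the integral is at most the
density of the cycle of length `2 k` times the bounds of the decorations.
-/

open MeasureTheory Finset

namespace Vale.Agent.P050.H602

open Vale.Agent.P050

variable {V : Type*} [Fintype V] [DecidableEq V] {Ω : Type*} [MeasurableSpace Ω]
variable {U : Sym2 Ω → ℝ} {ε : ℝ}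
variable (μ : Measure Ω) [IsProbabilityMeasure μ]

theorem two_halves (hU : Good U ε) {k : ℕ} {D1 D2 : V → (V → Ω) → Ω → ℝ}
    (hD1bm : ∀ v, BM (fun q : (V → Ω) × Ω => D1 v q.1 q.2))
    (hD2bm : ∀ v, BM (fun q : (V → Ω) × Ω => D2 v q.1 q.2))
    {p q : List V} {a m b : V}
    (hnd1 : (a :: p ++ [m]).Nodup) (hnd2 : (m :: q ++ [b]).Nodup)
    (hpq : List.Disjoint p q) (haq : a ∉ q) (hbp : b ∉ p)
    (hp : p.length + 1 = k) (hq : q.length + 1 = k)
    (hind1 : ∀ v ∈ p, ∀ u ∈ a :: p ++ m :: q, Ind u (D1 v))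
    (hind2 : ∀ v ∈ q, ∀ u ∈ p ++ m :: q ++ [b], Ind u (D2 v))
    {R : (V → Ω) → ℝ} (hR : BM R) {C : ℝ} (hC : ∀ x, |R x| ≤ C)
    (hRi : ∀ u ∈ p ++ q, Ind u R)
    {β1 β2 : V → ℝ} (hβ1 : ∀ v ∈ p, 0 < β1 v) (hβ2 : ∀ v ∈ q, 0 < β2 v)
    (hb1 : ∀ v ∈ p, ∀ x y, |D1 v x y| ≤ β1 v) (hb2 : ∀ v ∈ q, ∀ x y, |D2 v x y| ≤ β2 v) :
    |∫ x, pathProd U D1 a p m x * (pathProd U D2 m q b x * R x) ∂(piM V μ)| ≤
      C * ((p.map β1).prod * (q.map β2).prod) * ck μ U k := by
  set K1 : (V → Ω) → ℝ := fun x => kern μ (two U) (p.map (fun v => D1 v x)) (x a) (x m) with hK1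
  set K2 : (V → Ω) → ℝ := fun x => kern μ (two U) (q.map (fun v => D2 v x)) (x m) (x b) with hK2
  have hK1bm : BM K1 := (bm_kern μ hU hD1bm p).comp
    (g := fun x : V → Ω => (x, (x a, x m))) (by fun_prop)
  have hK2bm : BM K2 := (bm_kern μ hU hD2bm q).comp
    (g := fun x : V → Ω => (x, (x m, x b))) (by fun_prop)
  have ham : a ≠ m := by
    intro h; subst h; simp at hnd1
  have hmb : m ≠ b := by
    intro h; subst h; simp at hnd2
  have hap : a ∉ p := by
    intro h
    have : (a :: (p ++ [m])).Nodup := hnd1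
    exact (List.nodup_cons.mp this).1 (by simp [h])
  have hmq : m ∉ q := by
    intro h
    have : (m :: (q ++ [b])).Nodup := hnd2
    exact (List.nodup_cons.mp this).1 (by simp [h])
  have hmp : m ∉ p := by
    intro h
    have h1 : (a :: (p ++ [m])).Nodup := hnd1
    have h2 := (List.nodup_append.mp (List.nodup_cons.mp h1).2).2.2
    exact h2 m h m (by simp) rfl
  have hbq : b ∉ q := by
    intro h
    have h1 : (m :: (q ++ [b])).Nodup := hnd2
    have h2 := (List.nodup_append.mp (List.nodup_cons.mp h1).2).2.2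
    exact h2 b h b (by simp) rfl
  have hw : ∫ x, pathProd U D1 a p m x * (pathProd U D2 m q b x * R x) ∂(piM V μ) =
      ∫ x, K2 x * (K1 x * R x) ∂(piM V μ) := by
    rw [path_elim μ hU hD1bm p a m (fun x => pathProd U D2 m q b x * R x)
      ((bm_pathProd hU hD2bm q m b).mul hR) hnd1]
    · have : ∀ x, kern μ (two U) (p.map (fun v => D1 v x)) (x a) (x m) *
          (pathProd U D2 m q b x * R x) =
          pathProd U D2 m q b x * (K1 x * R x) := by
        intro x; simp only [hK1]; ring
      simp only [this]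
      rw [path_elim μ hU hD2bm q m b (fun x => K1 x * R x) (hK1bm.mul hR) hnd2]
      · intro u hu x y
        have hua : a ≠ u := by
          intro hh; subst hh; exact haq hu
        have hum : m ≠ u := by
          intro hh; subst hh; exact hmq hu
        have e1 : p.map (fun v => D1 v (Function.update x u y)) = p.map (fun v => D1 v x) := by
          apply List.map_congr_left
          intro v hv
          exact hind1 v hv u (by simp [hu]) x y
        have e2 : R (Function.update x u y) = R x := hRi u (by simp [hu]) x y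
        simp only [hK1, e1, e2, Function.update_of_ne hua, Function.update_of_ne hum]
      · intro v hv u hu
        exact hind2 v hv u (by simp [hu])
    · intro u hu x y
      have e1 : pathProd U D2 m q b (Function.update x u y) = pathProd U D2 m q b x := by
        apply pathProd_ind q m b (fun v hv => hind2 v hv u (by simp [hu]))
        intro hmem
        simp only [List.cons_append, List.mem_cons, List.mem_append, List.mem_singleton,
          List.not_mem_nil, or_false] at hmem
        rcases hmem with hh | hh | hh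
        · subst hh; exact hmp hu
        · exact hpq hu hh
        · subst hh; exact hbp hu
      have e2 : R (Function.update x u y) = R x := hRi u (by simp [hu]) x y
      simp only [e1, e2]
    · intro v hv u hu
      exact hind1 v hv u (by simp [hu])
  -- bounds
  set P1 := (p.map β1).prod with hP1
  set P2 := (q.map β2).prod with hP2
  have hP1pos : 0 < P1 := List.prod_pos (by
    intro z hz
    rw [List.mem_map] at hz
    obtain ⟨v, hv, rfl⟩ := hz
    exact hβ1 v hv)
  have hP2pos : 0 < P2 := List.prod_pos (by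
    intro z hz
    rw [List.mem_map] at hz
    obtain ⟨v, hv, rfl⟩ := hz
    exact hβ2 v hv)
  have hCnn : 0 ≤ C := by
    by_cases hne : Nonempty (V → Ω)
    · exact (abs_nonneg _).trans (hC hne.some)
    · exfalso
      have h0 : (piM V μ) Set.univ = 0 := by
        have : (Set.univ : Set (V → Ω)) = ∅ := by
          ext x; exact absurd ⟨x⟩ hne
        rw [this]; simp
      have h1 : (piM V μ) Set.univ = 1 := measure_univ
      rw [h0] at h1
      exact zero_ne_one h1
  have hI1 : ∫ x, K1 x ^ 2 ∂(piM V μ) ≤ P1 ^ 2 * ck μ U k := by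
    have := int_kern_sq_le μ hU hD1bm p ham (fun v hv => hind1 v hv a (by simp))
      (fun v hv => hind1 v hv m (by simp)) β1 hβ1 hb1
    rw [hp] at this
    exact this
  have hI2 : ∫ x, K2 x ^ 2 ∂(piM V μ) ≤ P2 ^ 2 * ck μ U k := by
    have := int_kern_sq_le μ hU hD2bm q hmb (fun v hv => hind2 v hv m (by simp))
      (fun v hv => hind2 v hv b (by simp)) β2 hβ2 hb2
    rw [hq] at this
    exact this
  rw [hw]
  have hpt : ∀ x, |K2 x * (K1 x * R x)| ≤
      C * (1 / 2 * (P2 / P1 * K1 x ^ 2 + P1 / P2 * K2 x ^ 2)) := by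
    intro x
    have h1 : |K2 x * K1 x| ≤ 1 / 2 * (P2 / P1 * K1 x ^ 2 + P1 / P2 * K2 x ^ 2) := by
      have ht : 0 < P2 / P1 := div_pos hP2pos hP1pos
      set t := P2 / P1 with htdef
      have ht' : P1 / P2 = t⁻¹ := by rw [htdef, inv_div]
      rw [ht', abs_mul]
      have h2 : 0 ≤ t * (|K1 x| - t⁻¹ * |K2 x|) ^ 2 := by (clear * - ht; positivity)
      have h3 : t * (|K1 x| - t⁻¹ * |K2 x|) ^ 2 =
          t * |K1 x| ^ 2 + t⁻¹ * |K2 x| ^ 2 - 2 * (|K2 x| * |K1 x|) := by
        field_simp
        ring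
      rw [h3, sq_abs, sq_abs] at h2
      linarith only [h2]
    calc |K2 x * (K1 x * R x)| = |R x| * |K2 x * K1 x| := by
          rw [← abs_mul]; congr 1; ring
      _ ≤ _ := mul_le_mul (hC x) h1 (abs_nonneg _) hCnn
  have hbmR : BM (fun x : V → Ω =>
      C * (1 / 2 * (P2 / P1 * K1 x ^ 2 + P1 / P2 * K2 x ^ 2))) :=
    (BM.const _).mul ((BM.const _).mul
      (((BM.const _).mul (hK1bm.pow 2)).add ((BM.const _).mul (hK2bm.pow 2))))
  calc |∫ x, K2 x * (K1 x * R x) ∂(piM V μ)|
      ≤ ∫ x, |K2 x * (K1 x * R x)| ∂(piM V μ) := abs_integral_le_integral_abs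
    _ ≤ ∫ x, C * (1 / 2 * (P2 / P1 * K1 x ^ 2 + P1 / P2 * K2 x ^ 2)) ∂(piM V μ) :=
        integral_mono (((hK2bm.mul (hK1bm.mul hR)).abs).integrable _)
          (hbmR.integrable _) hpt
    _ = C * (1 / 2 * (P2 / P1 * ∫ x, K1 x ^ 2 ∂(piM V μ) +
          P1 / P2 * ∫ x, K2 x ^ 2 ∂(piM V μ))) := by
        rw [integral_const_mul, integral_const_mul, integral_add, integral_const_mul,
          integral_const_mul]
        · exact ((BM.const _).mul (hK1bm.pow 2)).integrable _
        · exact ((BM.const _).mul (hK2bm.pow 2)).integrable _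
    _ ≤ C * (1 / 2 * (P2 / P1 * (P1 ^ 2 * ck μ U k) +
          P1 / P2 * (P2 ^ 2 * ck μ U k))) := by
        have h1 : 0 ≤ P2 / P1 := (div_pos hP2pos hP1pos).le
        have h2 : 0 ≤ P1 / P2 := (div_pos hP1pos hP2pos).le
        (clear * - hI1 h1 hI2 h2 hCnn; gcongr)
    _ = C * (P1 * P2) * ck μ U k := by
        have h1 := hP1pos.ne'
        have h2 := hP2pos.ne'
        field_simp
        ring

end Vale.Agent.P050.H602
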